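import Vale.Agent.P181.LF.H797.AllX
import Vale.Agent.P181.LF.H540.Sharp

set_option autoImplicit false

/-!
# P181, LF: the closed sharp form for `b ≥ C a`
-/

namespace Vale.Agent.P181.LF.H797

open Vale.Agent.P181

theorem coreD_closed : BAL.CoreD := BAL.H976.coreD_of BAL.H467.nine

theorem linSharp_closed : LF.H540.LinSharp :=
  LF.H540.linSharp_of linFull_closed coreD_closed PLX.polyS

end Vale.Agent.P181.LF.H797
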