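import Vale.Agent.P181.LF.H797.LinX
import Vale.Agent.P181.LF.Union3
import Vale.Agent.P181.BAL.H976.Fin
import Vale.Agent.P181.MD.H809.All
import Vale.Agent.P181.DX.H924.Uni
import Vale.Agent.P181.TR.H248.All

set_option autoImplicit false

/-!
# P181, LF: the closed theorems for `b ≥ C a`, over `TR.TLX`
-/

namespace Vale.Agent.P181.LF.H797

open Vale.Agent.P181

theorem linAll_closed : BL.LinAll := linAll_of TR.H248.tlx_closed H467.NT.linS

/-- A tail below row two of at most `a b / C` cells. -/
theorem linD_closed : LinD :=
  linD_of linAll_closed BAL.H976.twoLongD_closed (fun _ _ _ lam hab h => DX.X924.few_all hab lam h)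
    PLX.polyS

/-- For `b ≥ C a`: every shape except
`a ^ 2 / polylog < λ_2 < θ a ^ 2`, `b - a + 1 < D_2 < a polylog`. -/
theorem linFull_closed : LinFull :=
  linFull_of_third linD_closed MD.H809.thirdLong FD.fatLog PLX.polyS

/-- `linFull_closed` in the letters of the hand-in. -/
theorem linC_closed : LinC := linC_of linFull_closed

/-- `linD_closed` in the letters of the hand-in. -/
theorem linE_closed : LinE := linE_of linD_closed

end Vale.Agent.P181.LF.H797
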