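import Vale.Agent.P181.TL.H850.JoinP
import Vale.Agent.P181.TR.Defs
import Vale.Agent.P181.BL.DefsJ
import Vale.Agent.P181.H530.Zero

set_option autoImplicit false

/-!
# P181, LF: `BL.LinAll` from `TR.TLX` and `LinS`
-/

namespace Vale.Agent.P181.LF.H797

open Vale.Agent.P181.H280 (plethMult)
open Vale.Agent.P181.PL (dn)
open Vale.Agent.P181.TL
open Vale.Agent.P181.TL.H850
open Vale.Agent.P181.H467.NT (LinS)

theorem linAll_of (hX : TR.TLX) (hL : LinS) : BL.LinAll := by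
  obtain ⟨C₀, c₀, hC₀, h0⟩ := hX
  obtain ⟨C₁, c₁, hC₁, h1⟩ := hL
  obtain ⟨C, hCdef⟩ : ∃ C : ℝ, C = C₀ + C₁ + 170 := ⟨_, rfl⟩
  have hC : 0 < C := by rw [hCdef]; positivity
  have hC0 : C₀ ≤ C := by rw [hCdef]; linarith
  have hC1 : C₁ ≤ C := by rw [hCdef]; linarith
  have hC2 : (170 : ℝ) ≤ C := by rw [hCdef]; linarith
  refine ⟨C, max c₀ c₁, hC, fun a b hab n lam hw hh => ?_⟩
  have ha0 : (0 : ℝ) ≤ a := Nat.cast_nonneg _
  have hab' : 170 * a ≤ b := by
    have h : (170 : ℝ) * a ≤ b := (mul_le_mul_of_nonneg_right hC2 ha0).trans hab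
    exact_mod_cast h
  obtain ⟨L, hLdef⟩ : ∃ L : ℝ, L = 1 + Real.log a := ⟨_, rfl⟩
  have hL1 : 1 ≤ L := by
    rw [hLdef]
    linarith [Real.log_natCast_nonneg a]
  rw [← hLdef] at hh
  rcases hh with hh | hh
  · refine h1 a b (by omega) n lam ?_
    rw [← hLdef]
    refine le_trans ?_ hh
    have e : L ^ c₁ ≤ L ^ (max c₀ c₁) := pow_le_pow_right₀ hL1 (le_max_right _ _)
    exact mul_le_mul_of_nonneg_right (mul_le_mul hC1 e (by positivity) hC.le) (Nat.cast_nonneg _)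
  have hDD : TR.D2 lam = dn lam 2 := rfl
  by_cases hz : plethMult a b n lam = 0
  · rw [hz]
    exact Nat.zero_le _
  obtain ⟨hanti, hsum, -⟩ := H530.zero_stmt a b n lam hz
  refine h0 a b (by omega) n lam ?_ ?_
  · intro hn
    obtain ⟨k, rfl⟩ := Nat.exists_eq_add_of_le' (show 2 ≤ n from hn)
    rw [hDD]
    have f2 : dn lam 2 = dn2 lam := dn_two lam
    have f1 : dn lam 1 = lam 1 + dn2 lam := dn_one lam
    have f0 : ∑ i, lam i = lam 0 + (lam 1 + dn2 lam) := sum_eq lam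
    have hab2 : 170 * a ^ 2 ≤ a * b := by nlinarith
    change lam 1 + 60 * dn lam 2 + 17 * a ^ 2 ≤ lam 0
    omega
  · rw [hDD, ← hLdef]
    rcases hh with hh | hh
    · left
      refine le_trans ?_ hh
      have e : L ^ c₀ ≤ L ^ (max c₀ c₁) := pow_le_pow_right₀ hL1 (le_max_left _ _)
      exact mul_le_mul_of_nonneg_right (mul_le_mul hC0 e (by positivity) hC.le) ha0
    · exact Or.inr hh

end Vale.Agent.P181.LF.H797
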