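import Vale.Agent.P181.H622U.MergeB
import Vale.Agent.P181.H382.H112.DefsU

set_option autoImplicit false

/-!
# P181: `mainB` and `RhoU` in one sentence
-/

namespace Vale.Agent.P181.LF.H797

open Vale.Agent.P181.H280 (plethMult)
open Vale.Agent.P181.PL (dn)
open Vale.Agent.P181.DX.H556 (UniY UniAll FatLog)
open Vale.Agent.P181.H622U (AltA altA_mono le_P mainB)

theorem mainR (hA : UniAll) (hY : UniY) (hF : FatLog) (hN : RH.NearA) (hR : H382.H112.RhoU) :
    ∃ (C : ℝ) (c : ℕ), 1 ≤ C ∧ ∀ a b : ℕ, a ≤ b → ∀ (n : ℕ) (lam : Fin n → ℕ),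
      (AltA (C * (1 + Real.log a) ^ c) a b n lam ∨
        C * b * Real.log (2 + Real.log a) ≤ ((b : ℝ) - a) * Real.log ((dn lam 2 : ℝ) / a) ∨
        C * b * Real.log (2 * b / ((b : ℝ) - a)) ≤
          ((b : ℝ) - a) * Real.log ((dn lam 1 : ℝ) * dn lam 2 / (b : ℝ) ^ 3)) →
      plethMult a b n lam ≤ plethMult b a n lam := by
  obtain ⟨C1, c1, hC1, h1⟩ := mainB hA hY hF hN
  obtain ⟨C2, hC2, h2⟩ := hR
  refine ⟨C1 + C2, c1, by linarith, fun a b hab n lam h => ?_⟩
  have hlog : 0 ≤ Real.log a := Real.log_natCast_nonneg a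
  have hb : (0 : ℝ) ≤ (b : ℝ) := Nat.cast_nonneg _
  rcases h with h | h | h
  · exact h1 a b hab n lam (Or.inl (altA_mono (le_P (C' := C2) (c' := 0) (by linarith)
      (by linarith) (by linarith)) h))
  · refine h1 a b hab n lam (Or.inr (le_trans ?_ h))
    have h3 : 0 ≤ Real.log (2 + Real.log a) := Real.log_nonneg (by linarith)
    have h4 : C1 * (b : ℝ) ≤ (C1 + C2) * b := mul_le_mul_of_nonneg_right (by linarith) hb
    exact mul_le_mul_of_nonneg_right h4 h3
  · rcases Nat.eq_or_lt_of_le hab with hab' | hab'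
    · subst hab'
      exact le_rfl
    refine h2 a b hab' n lam (le_trans ?_ h)
    have hab2 : (0 : ℝ) < (b : ℝ) - a := by
      have : (a : ℝ) < b := by exact_mod_cast hab'
      linarith
    have h3 : 0 ≤ Real.log (2 * b / ((b : ℝ) - a)) := by
      refine Real.log_nonneg ?_
      rw [le_div_iff₀ hab2]
      have : (0 : ℝ) ≤ a := Nat.cast_nonneg _
      linarith
    have h4 : C2 * (b : ℝ) ≤ (C1 + C2) * b := mul_le_mul_of_nonneg_right (by linarith) hb
    exact mul_le_mul_of_nonneg_right h4 h3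

end Vale.Agent.P181.LF.H797
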