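import Vale.Agent.P181.LF.Near
import Vale.Agent.P181.MD.H873.All
import Vale.Agent.P181.DX.H924.Uni

set_option autoImplicit false

/-!
# P181, LF: the closed theorem for `b ≥ (1 + δ) a`
-/

namespace Vale.Agent.P181.LF.H797

open Vale.Agent.P181

/-- For `b ≥ (1 + δ) a`: at least `a ^ (5 / 3)` polylog cells below row two. -/
theorem nearD_closed : NearD :=
  nearD_of MD.H873.third FD.fatLog (fun _ _ _ lam hab h => DX.X924.few_all hab lam h) PLX.polyS

end Vale.Agent.P181.LF.H797
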