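import Vale.Agent.P181.H382.H640.RhoU
import Vale.Agent.P181.H382.H755.AllU
import Vale.Agent.P181.RV.H809.AllU
import Vale.Agent.P181.GN.H457.All
import Vale.Agent.P181.PLX.Main

set_option autoImplicit false

/-!
# P181: the closed form of `RhoU`
-/

namespace Vale.Agent.P181.LF.H797

open Vale.Agent.P181

/-- Every `a < b` and every shape with `C b log (2 b / (b - a)) ≤ (b - a) log (w D / b ^ 3)`. -/
theorem rhoU_closed : H382.H112.RhoU :=
  H382.H640.rhoU H382.H755.rhoP_closed RV.H809.nearV GN.H457.uniAllc PLX.polyS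

end Vale.Agent.P181.LF.H797
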