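import Vale.Agent.P181.H382.H755.All
import Vale.Agent.P181.H382.H755.AllT
import Vale.Agent.P181.H382.H510.Near
import Vale.Agent.P181.H382.H694.Rho
import Vale.Agent.P181.MD.H873.All

set_option autoImplicit false

/-!
# P181: the closed forms of `NearAll` and `RhoAll`
-/

namespace Vale.Agent.P181.LF.H797

open Vale.Agent.P181

/-- `b ≥ (1 + δ) a`, `D ≥ a polylog`. -/
theorem nearAll_closed : H382.NearAll :=
  H382.H510.nearAll H382.H755.twoLongN_closed MD.H873.third FD.fatLog HO.uniYc PLX.polyS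

/-- `b ≥ (1 + δ) a`, `w D ≥ C b ^ 3`. -/
theorem rhoAll_closed : H382.H112.RhoAll :=
  H382.H694.rhoAll H382.H755.twoLongS_closed nearAll_closed PLX.polyS

end Vale.Agent.P181.LF.H797
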