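import Vale.Agent.P181.LF.H540.SharpK
import Vale.Agent.P181.LF.NearU

set_option autoImplicit false

/-!
# P181, LF: `SharpK` from `NearU`
-/

namespace Vale.Agent.P181.LF.H797

open Vale.Agent.P181.PL (dn PolyS)
open Vale.Agent.P181.LF

/-- A tail with at least `a polylog` cells, `b ≥ 1000 a`. -/
theorem longT_of (hU : NearU) (hP : PolyS) : H540.LongT := by
  obtain ⟨C, hC, h⟩ := hU
  obtain ⟨C1, c1, -, hp⟩ := hP
  obtain ⟨c, hc⟩ := exists_nat_ge (2 * C)
  refine ⟨2 ^ c, c, by positivity, fun a b hab n lam hD => ?_⟩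
  rcases Nat.eq_zero_or_pos a with ha | ha
  · subst ha
    exact hp 0 b (by simp) n lam
  have ha0 : (0 : ℝ) < a := by exact_mod_cast ha
  obtain ⟨L, hLd⟩ : ∃ L : ℝ, L = 1 + Real.log a := ⟨_, rfl⟩
  have hL : 1 ≤ L := by
    rw [hLd]
    linarith [Real.log_natCast_nonneg a]
  have hL2 : 2 + Real.log a = 1 + L := by rw [hLd]; ring
  rw [← hLd] at hD
  refine h a b (by omega) n lam ?_
  rw [hL2]
  have e1 : (2 * L) ^ c ≤ (dn lam 2 : ℝ) / a := by
    rw [le_div_iff₀ ha0, mul_pow]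
    exact hD
  have e2 : c * Real.log (2 * L) ≤ Real.log ((dn lam 2 : ℝ) / a) := by
    rw [← Real.log_pow]
    exact Real.log_le_log (by positivity) e1
  have e3 : Real.log (1 + L) ≤ Real.log (2 * L) :=
    Real.log_le_log (by linarith) (by linarith)
  have e4 : 0 ≤ Real.log (1 + L) := Real.log_nonneg (by linarith)
  have hb : (1000 : ℝ) * a ≤ b := by exact_mod_cast hab
  have e5 : c * Real.log (1 + L) ≤ Real.log ((dn lam 2 : ℝ) / a) :=
    (mul_le_mul_of_nonneg_left e3 (Nat.cast_nonneg c)).trans e2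
  have e6 : (b : ℝ) / 2 ≤ b - a := by linarith
  have e7 : C * b ≤ ((b : ℝ) - a) * c := by
    calc C * b = (b : ℝ) / 2 * (2 * C) := by ring
      _ ≤ (b - a) * c := mul_le_mul e6 hc (by positivity) (by linarith)
  calc C * b * Real.log (1 + L) ≤ ((b : ℝ) - a) * c * Real.log (1 + L) :=
        mul_le_mul_of_nonneg_right e7 e4
    _ = ((b : ℝ) - a) * (c * Real.log (1 + L)) := by ring
    _ ≤ ((b : ℝ) - a) * Real.log ((dn lam 2 : ℝ) / a) :=
        mul_le_mul_of_nonneg_left e5 (by linarith)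

end Vale.Agent.P181.LF.H797
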