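import Vale.Agent.P181.RH.H622.All
import Vale.Agent.P181.LF.H797.SharpKX
import Vale.Agent.P181.LF.H797.SharpX

set_option autoImplicit false

/-!
# P181, LF: the closed forms of `NearU` and `SharpK`
-/

namespace Vale.Agent.P181.LF.H797

open Vale.Agent.P181

/-- Every shape with `C b loglog a ≤ (b - a) log (D / a)`. -/
theorem nearU_closed : NearU := by
  obtain ⟨C, hC, h⟩ := RH.H622.nearA
  exact ⟨C, hC, fun a b hab n lam hh => h a b hab.le n lam hh⟩

/-- `b ≥ 1000 a`, `D ≥ C a`, `λ_2 ^ 2 D ≥ C a ^ 5`. -/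
theorem sharpK_closed : H540.SharpK :=
  H540.sharpK_of (longT_of nearU_closed PLX.polyS) H467.NT.linS
    (fun _ _ _ lam hab h => DX.X924.few_all hab lam h) coreD_closed PLX.polyS

end Vale.Agent.P181.LF.H797
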